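import Mathlib

/-!
A lattice of bounded covolume without short vectors has a bounded covering radius.
-/

open Topology Module MeasureTheory Pointwise

namespace Vale.Agent.P011N.G1

theorem cover_aux {d : ℕ} {c : ℝ} (hc : 0 < c) {k : ℕ} (hk : 1 < (k + 1 : ℝ) * c ^ d)
    (β : Basis (Fin d) ℝ (Fin d → ℝ)) (hdet : |(Matrix.of β).det| ≤ 1)
    (hmin : ∀ v ∈ Submodule.span ℤ (Set.range β), v ≠ 0 → c ≤ ‖v‖) (x : Fin d → ℝ) :
    ∃ v ∈ Submodule.span ℤ (Set.range β), ‖x - v‖ ≤ k * c := by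
  by_contra hcon
  push Not at hcon
  set L := Submodule.span ℤ (Set.range β) with hL
  let f : (Fin d → ℝ) → ℝ := fun y => Metric.infDist y (L : Set (Fin d → ℝ))
  have hne : (L : Set (Fin d → ℝ)).Nonempty := ⟨0, L.zero_mem⟩
  have hf0 : f 0 = 0 := Metric.infDist_zero_of_mem L.zero_mem
  have hfx : k * c ≤ f x := (Metric.le_infDist hne).2 fun y hy => by
    rw [dist_eq_norm]
    exact (hcon y hy).le
  have hcont : Continuous f := Metric.continuous_infDist_pt _
  have hper : ∀ v ∈ L, ∀ y, f (v + y) = f y := by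
    intro v hv y
    have h1 : (fun y => v + y) '' (L : Set (Fin d → ℝ)) = L := by
      ext w
      constructor
      · rintro ⟨u, hu, rfl⟩
        exact L.add_mem hv hu
      · intro hw
        exact ⟨w - v, L.sub_mem hw hv, by simp⟩
    have h2 := Metric.infDist_image (isometry_add_left v) (x := y) (t := (L : Set (Fin d → ℝ)))
    rw [h1] at h2
    exact h2
  have hpt : ∀ j : Fin (k + 1), ∃ y, f y = (j : ℕ) * c := by
    intro j
    refine intermediate_value_univ 0 x hcont ⟨?_, ?_⟩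
    · rw [hf0]
      positivity
    · refine le_trans (mul_le_mul_of_nonneg_right ?_ hc.le) hfx
      exact_mod_cast Nat.lt_succ_iff.1 j.2
  choose y hy using hpt
  have hball : ∀ j, ∀ u ∈ Metric.ball (y j) (c / 2), |f u - (j : ℕ) * c| < c / 2 := by
    intro j u hu
    rw [← hy j]
    have h1 : f u ≤ f (y j) + dist u (y j) := Metric.infDist_le_infDist_add_dist
    have h2 : f (y j) ≤ f u + dist (y j) u := Metric.infDist_le_infDist_add_dist
    rw [dist_comm] at h2
    have h3 : dist u (y j) < c / 2 := hu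
    rw [abs_lt]
    constructor <;> linarith
  have hsame : ∀ i j, ∀ u ∈ Metric.ball (y i) (c / 2), ∀ w ∈ Metric.ball (y j) (c / 2),
      f u = f w → i = j := by
    intro i j u hu w hw huw
    have h1 := abs_lt.1 (hball i u hu)
    have h2 := abs_lt.1 (hball j w hw)
    have h3 : ((i : ℕ) : ℝ) < (j : ℕ) + 1 := by nlinarith
    have h4 : ((j : ℕ) : ℝ) < (i : ℕ) + 1 := by nlinarith
    have h5 : (i : ℕ) < (j : ℕ) + 1 := by exact_mod_cast h3
    have h6 : (j : ℕ) < (i : ℕ) + 1 := by exact_mod_cast h4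
    exact Fin.ext (by omega)
  let S : Set (Fin d → ℝ) := ⋃ j, Metric.ball (y j) (c / 2)
  have hS : MeasurableSet S := MeasurableSet.iUnion fun j => measurableSet_ball
  have hvol : volume S = ENNReal.ofReal ((k + 1 : ℝ) * c ^ d) := by
    rw [measure_iUnion (fun i j hij => Set.disjoint_left.2 fun u hu hw =>
      hij (hsame i j u hu u hw rfl)) fun j => measurableSet_ball]
    have h1 : ∀ j, volume (Metric.ball (y j) (c / 2)) = ENNReal.ofReal (c ^ d) := by
      intro j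
      rw [Real.volume_pi_ball _ (half_pos hc), Fintype.card_fin]
      congr 2
      ring
    simp_rw [h1]
    rw [tsum_fintype, Finset.sum_const, Finset.card_univ, Fintype.card_fin, nsmul_eq_mul,
      ENNReal.ofReal_mul (by positivity)]
    congr 1
    rw [← ENNReal.ofReal_natCast]
    push_cast
    rfl
  have hlt : volume (ZSpan.fundamentalDomain β) < volume S := by
    rw [ZSpan.volume_fundamentalDomain, hvol]
    exact (ENNReal.ofReal_lt_ofReal_iff (by linarith)).2 (lt_of_le_of_lt hdet hk)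
  have : Countable L.toAddSubgroup := inferInstanceAs (Countable L)
  obtain ⟨v, w, hvw, hdis⟩ := exists_pair_mem_lattice_not_disjoint_vadd
    (ZSpan.isAddFundamentalDomain' β volume) hS.nullMeasurableSet hlt
  obtain ⟨t, ⟨u, hu, hut⟩, ⟨u', hu', hut'⟩⟩ := Set.not_disjoint_iff.1 hdis
  obtain ⟨i, hi⟩ := Set.mem_iUnion.1 hu
  obtain ⟨j, hj⟩ := Set.mem_iUnion.1 hu'
  have h1 : v.1 + u = w.1 + u' := hut.trans hut'.symm
  have h2 : f u = f u' := by rw [← hper v.1 v.2 u, h1, hper w.1 w.2 u']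
  obtain rfl := hsame i j u hi u' hj h2
  have h3 : v.1 - w.1 ≠ 0 := fun h => hvw (Subtype.ext (sub_eq_zero.1 h))
  have h4 := hmin _ (L.sub_mem v.2 w.2) h3
  have h5 : v.1 - w.1 = u' - u := by linear_combination h1
  rw [h5, ← dist_eq_norm] at h4
  have h6 := dist_triangle_right u' u (y i)
  have h7 : dist u (y i) < c / 2 := hi
  have h8 : dist u' (y i) < c / 2 := hj
  linarith

theorem cover (d : ℕ) {c : ℝ} (hc : 0 < c) :
    ∃ ρ : ℝ, 0 ≤ ρ ∧ ∀ B : Matrix (Fin d) (Fin d) ℝ, B.det ≠ 0 → |B.det| ≤ 1 →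
      (∀ z : Fin d → ℤ, B.mulVec (fun i => (z i : ℝ)) ≠ 0 → c ≤ ‖B.mulVec fun i => (z i : ℝ)‖) →
      ∀ x : Fin d → ℝ, ∃ z : Fin d → ℤ, ‖x - B.mulVec fun i => (z i : ℝ)‖ ≤ ρ := by
  obtain ⟨k, hk⟩ := exists_nat_gt (c ^ d)⁻¹
  have hcd : 0 < c ^ d := by positivity
  have hk' : 1 < (k + 1 : ℝ) * c ^ d := by
    rw [inv_lt_iff_one_lt_mul₀ hcd] at hk
    nlinarith
  refine ⟨k * c, by positivity, fun B hB hdet hmin x => ?_⟩
  let β : Basis (Fin d) ℝ (Fin d → ℝ) := (Pi.basisFun ℝ (Fin d)).map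
    (Matrix.toLinearEquiv (Pi.basisFun ℝ (Fin d)) B (isUnit_iff_ne_zero.2 hB))
  have hβ : ∀ i j, β i j = B j i := by
    intro i j
    simp [β, Matrix.toLin_apply, Pi.single_apply, Matrix.mulVec, dotProduct]
  have hmem : ∀ v ∈ Submodule.span ℤ (Set.range β),
      ∃ z : Fin d → ℤ, v = B.mulVec fun i => (z i : ℝ) := by
    intro v hv
    obtain ⟨z, rfl⟩ := (Submodule.mem_span_range_iff_exists_fun ℤ).1 hv
    refine ⟨z, funext fun j => ?_⟩
    simp [Matrix.mulVec, dotProduct, hβ, mul_comm]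
  have h1 : Matrix.of β = B.transpose := Matrix.ext fun i j => hβ i j
  obtain ⟨v, hv, h⟩ := cover_aux hc hk' β (by rwa [h1, Matrix.det_transpose]) (fun v hv h0 => by
    obtain ⟨z, rfl⟩ := hmem v hv
    exact hmin z h0) x
  obtain ⟨z, rfl⟩ := hmem v hv
  exact ⟨z, h⟩

/-- A lattice of bounded covolume without short vectors contains independent bounded vectors. -/
theorem short (d : ℕ) {c : ℝ} (hc : 0 < c) :
    ∃ C : ℝ, 1 ≤ C ∧ ∀ B : Matrix (Fin d) (Fin d) ℚ, B.det ≠ 0 → |B.det| ≤ 1 →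
      (∀ z : Fin d → ℤ, B.mulVec (fun i => (z i : ℚ)) ≠ 0 →
        ∃ i, c ≤ |((B.mulVec (fun i => (z i : ℚ)) i : ℚ) : ℝ)|) →
      ∃ Z : Matrix (Fin d) (Fin d) ℤ, (B * Z.map (Int.cast : ℤ → ℚ)).det ≠ 0 ∧
        ∀ i j, |(((B * Z.map (Int.cast : ℤ → ℚ)) i j : ℚ) : ℝ)| ≤ C := by
  obtain ⟨ρ, hρ, h⟩ := cover d hc
  refine ⟨(d + 1) * ρ + 1 + ρ, by nlinarith [Nat.cast_nonneg (α := ℝ) d], fun B hB hdet hmin => ?_⟩
  let B' : Matrix (Fin d) (Fin d) ℝ := B.map (Rat.castHom ℝ)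
  have hdet' : B'.det = (B.det : ℝ) := ((Rat.castHom ℝ).map_det B).symm
  have hmv : ∀ (z : Fin d → ℤ) i,
      B'.mulVec (fun i => (z i : ℝ)) i = ((B.mulVec (fun i => (z i : ℚ)) i : ℚ) : ℝ) := by
    intro z i
    simp [B', Matrix.mulVec, dotProduct]
  have h1 := h B' (by rw [hdet']; exact_mod_cast hB) (by rw [hdet']; exact_mod_cast hdet)
    (fun z hz => by
      obtain ⟨i, hi⟩ := hmin z fun h0 => hz (funext fun i => by rw [hmv, h0]; simp)
      rw [← hmv] at hi
      exact hi.trans (norm_le_pi_norm (B'.mulVec fun i => (z i : ℝ)) i))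
  choose z hz using fun j : Fin d => h1 (Pi.single j ((d + 1) * ρ + 1))
  let Z : Matrix (Fin d) (Fin d) ℤ := Matrix.of fun i j => z j i
  let Y : Matrix (Fin d) (Fin d) ℚ := B * Z.map (Int.cast : ℤ → ℚ)
  have hY : ∀ i j, |(Pi.single j ((d + 1) * ρ + 1) : Fin d → ℝ) i - (Y i j : ℝ)| ≤ ρ := by
    intro i j
    have h2 := (norm_le_pi_norm _ i).trans (hz j)
    rw [Pi.sub_apply, hmv, Real.norm_eq_abs] at h2
    exact h2
  have hoff : ∀ i j, i ≠ j → |(Y i j : ℝ)| ≤ ρ := by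
    intro i j hij
    have h2 := hY i j
    rwa [Pi.single_eq_of_ne hij, zero_sub, abs_neg] at h2
  have hdiag : ∀ i, d * ρ + 1 ≤ (Y i i : ℝ) ∧ (Y i i : ℝ) ≤ (d + 1) * ρ + 1 + ρ := by
    intro i
    have h2 := hY i i
    rw [Pi.single_eq_same, abs_le] at h2
    constructor <;> linarith [h2.1, h2.2]
  have hd0 : (0 : ℝ) ≤ d * ρ := by positivity
  refine ⟨Z, ?_, fun i j => ?_⟩
  · refine det_ne_zero_of_sum_col_lt_diag (A := Y) fun j => ?_
    have h2 : ∑ i ∈ Finset.univ.erase j, ‖Y i j‖ ≤ (Finset.univ.erase j).card • ρ :=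
      Finset.sum_le_card_nsmul _ _ _ fun i hi => hoff i j (Finset.ne_of_mem_erase hi)
    have h3 : ((Finset.univ.erase j).card : ℝ) ≤ d := by
      have := Finset.card_le_univ (Finset.univ.erase j)
      rw [Fintype.card_fin] at this
      exact_mod_cast this
    have h4 : (Y j j : ℝ) ≤ ‖Y j j‖ := le_abs_self _
    rw [nsmul_eq_mul] at h2
    nlinarith [(hdiag j).1]
  · change |(Y i j : ℝ)| ≤ _
    by_cases hij : i = j
    · subst hij
      rw [abs_of_nonneg (by linarith [(hdiag i).1])]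
      exact (hdiag i).2
    · have := hoff i j hij
      nlinarith

end Vale.Agent.P011N.G1
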