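import Vale.Agent.P011N.G1.Disc
import Vale.Agent.P011N.G1.Cover

/-!
Cocompactness.
-/

open Topology Module Pointwise

namespace Vale.Agent.P011N.G1

section

variable {V : Type} [AddCommGroup V] [Module ℚ V] {d : ℕ} (b : Basis (Fin d) ℚ V)
  (P : Finset Nat.Primes) (T : Forms V)

theorem expand {n : ℕ} (τ : MultilinearMap ℚ (fun _ : Fin n => V) ℚ) (x : Fin n → V) :
    τ x = ∑ J : Fin n → Fin d, (∏ k, b.repr (x k) (J k)) * τ fun k => b (J k) := by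
  conv_lhs => rw [show x = fun k => ∑ j, b.repr (x k) j • b j from
    funext fun k => (b.sum_repr (x k)).symm]
  rw [τ.map_sum]
  exact Finset.sum_congr rfl fun J _ => τ.map_smul_univ _ _

theorem tau_int : ∃ D : ℕ, D ≠ 0 ∧ ∀ (S : Subring ℚ) (i : T.I) (x : Fin (T.deg i) → V),
    (∀ k j, b.repr (x k) j ∈ S) → (D : ℚ) * T.τ i x ∈ S := by
  have := T.fin
  obtain ⟨D, hD, h⟩ := exists_den (Set.finite_range
    fun p : Σ i : T.I, Fin (T.deg i) → Fin d => T.τ p.1 fun k => b (p.2 k))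
  refine ⟨D, hD, fun S i x hx => ?_⟩
  rw [expand b, Finset.mul_sum]
  refine S.sum_mem fun J _ => ?_
  obtain ⟨z, hz⟩ := h _ ⟨⟨i, J⟩, rfl⟩
  rw [mul_left_comm, hz]
  exact S.mul_mem (S.prod_mem fun k _ => hx k _) (intCast_mem _ _)

theorem tau_bd : ∃ C : ℝ, 0 < C ∧ ∀ (i : T.I) (x : Fin (T.deg i) → V) (r : ℝ), 0 ≤ r →
    (∀ k j, |((b.repr (x k) j : ℚ) : ℝ)| ≤ r) → |((T.τ i x : ℚ) : ℝ)| ≤ C * r ^ T.deg i := by
  have := T.fin
  obtain ⟨C, hC⟩ := (Set.finite_range fun i : T.I =>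
    ∑ J : Fin (T.deg i) → Fin d, |((T.τ i fun k => b (J k) : ℚ) : ℝ)|).bddAbove
  refine ⟨max C 1, lt_of_lt_of_le one_pos (le_max_right _ _), fun i x r hr hx => ?_⟩
  have h1 : ∑ J : Fin (T.deg i) → Fin d, |((T.τ i fun k => b (J k) : ℚ) : ℝ)| ≤ max C 1 :=
    (hC ⟨i, rfl⟩).trans (le_max_left _ _)
  refine le_trans ?_ (mul_le_mul_of_nonneg_right h1 (pow_nonneg hr _))
  rw [expand b, Finset.sum_mul]
  push_cast
  refine (Finset.abs_sum_le_sum_abs _ _).trans (Finset.sum_le_sum fun J _ => ?_)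
  rw [abs_mul, mul_comm, Finset.abs_prod]
  refine mul_le_mul_of_nonneg_left ?_ (abs_nonneg _)
  refine (Finset.prod_le_prod (fun k _ => abs_nonneg _) fun k _ => hx k (J k)).trans ?_
  rw [Finset.prod_const, Finset.card_univ, Fintype.card_fin]

theorem repr_apply (g : V ≃ₗ[ℚ] V) (x : V) (i : Fin d) :
    b.repr (g x) i = (mat b g).1.mulVec (b.repr x) i := by
  rw [mat_val, LinearMap.toMatrix_mulVec_repr]
  rfl

theorem repr_basis (g : V ≃ₗ[ℚ] V) (i j : Fin d) : b.repr (g (b j)) i = (mat b g).1 i j := by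
  rw [mat_val, LinearMap.toMatrix_apply]
  rfl

theorem det_mat (g : V ≃ₗ[ℚ] V) : (mat b g).1.det = LinearMap.det (g : Module.End ℚ V) := by
  rw [mat_val, LinearMap.det_toMatrix]

/-- The lower bound for the vectors of the lattices. -/
theorem lower (ha : ∀ x : V, x ≠ 0 → ∃ i, T.deg i ≠ 0 ∧ T.τ i (fun _ => x) ≠ 0) :
    ∃ c : ℝ, 0 < c ∧ ∀ g ∈ T.grp, ∀ x : V, x ≠ 0 → (∀ j, b.repr x j ∈ ZS (P : Set Nat.Primes)) →
      (∀ j, b.repr (g x) j ∈ ZS (P : Set Nat.Primes)ᶜ) → ∃ j, c ≤ |((b.repr x j : ℚ) : ℝ)| := by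
  obtain ⟨D, hD, h1⟩ := tau_int b T
  obtain ⟨C, hC, h2⟩ := tau_bd b T
  have hD' : (0 : ℝ) < D := Nat.cast_pos.2 (Nat.pos_of_ne_zero hD)
  have hpos : 0 < (2 * D * C)⁻¹ := by positivity
  refine ⟨min 1 (2 * D * C)⁻¹, lt_min one_pos hpos, fun g hg x hx hx1 hx2 => ?_⟩
  by_contra hcon
  push Not at hcon
  obtain ⟨i, hi, hτ⟩ := ha x hx
  have h3 := h1 _ i (fun _ => x) fun _ j => hx1 j
  have h4 := h1 _ i (fun _ => g x) fun _ j => hx2 j
  rw [hg i fun _ => x] at h4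
  obtain ⟨z, hz⟩ := int_of_mem h3 h4
  have hz0 : z ≠ 0 := by
    rintro rfl
    exact mul_ne_zero (Nat.cast_ne_zero.2 hD) hτ (by simpa using hz)
  have h5 := h2 i (fun _ => x) _ (lt_min one_pos hpos).le fun _ j => (hcon j).le
  have h6 : (min 1 (2 * D * C)⁻¹) ^ T.deg i ≤ (2 * D * C)⁻¹ :=
    (pow_le_of_le_one (lt_min one_pos hpos).le (min_le_left _ _) hi).trans (min_le_right _ _)
  have h7 : (1 : ℝ) ≤ |(z : ℝ)| := by exact_mod_cast Int.one_le_abs hz0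
  have h8 : (z : ℝ) = D * ((T.τ i fun _ => x : ℚ) : ℝ) := by exact_mod_cast hz.symm
  rw [h8, abs_mul, abs_of_pos hD'] at h7
  have h9 : (D : ℝ) * (C * (2 * D * C)⁻¹) = 1 / 2 := by field_simp
  have h10 := mul_le_mul_of_nonneg_left (h5.trans (mul_le_mul_of_nonneg_left h6 hC.le)) hD'.le
  linarith

/-- Reduction. -/
theorem reduce (hd : ∀ g ∈ T.grp, |LinearMap.det (g : Module.End ℚ V)| = 1)
    (ha : ∀ x : V, x ≠ 0 → ∃ i, T.deg i ≠ 0 ∧ T.τ i (fun _ => x) ≠ 0) :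
    ∃ C : ℝ, 1 ≤ C ∧ ∀ g ∈ T.grp, ∃ y : V ≃ₗ[ℚ] V, InM (ZS (P : Set Nat.Primes)) (mat b y).1 ∧
      InM (ZS (P : Set Nat.Primes)ᶜ) (mat b (g * y)).1 ∧
      ∀ i j, |(((mat b y).1 i j : ℚ) : ℝ)| ≤ C := by
  obtain ⟨c, hc, h1⟩ := lower b P T ha
  obtain ⟨C, hC, h2⟩ := short d hc
  refine ⟨C, hC, fun g hg => ?_⟩
  obtain ⟨B, hB0, hB1, hB2, hB3⟩ := lattice_basis (P : Set Nat.Primes) (mat_mul_inv b g)
    (by rw [det_mat]; exact hd g hg)
  obtain ⟨Z, hZ0, hZ1⟩ := h2 B hB0 hB1 fun z hz => by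
    have h3 : (b.repr (b.equivFun.symm (B.mulVec fun i => (z i : ℚ))) : Fin d → ℚ) =
        B.mulVec fun i => (z i : ℚ) := by
      rw [← b.equivFun_apply, LinearEquiv.apply_symm_apply]
    have h4 := h1 g hg (b.equivFun.symm (B.mulVec fun i => (z i : ℚ)))
      (fun h => hz (b.equivFun.symm.map_eq_zero_iff.1 h))
      (fun j => by
        rw [h3]
        exact hB2.mulVec (fun i => intCast_mem _ _) j)
      (fun j => by
        rw [repr_apply, h3, Matrix.mulVec_mulVec]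
        exact hB3.mulVec (fun i => intCast_mem _ _) j)
    rwa [h3] at h4
  obtain ⟨y, hy⟩ := mat_surj b (Matrix.GeneralLinearGroup.mkOfDetNeZero _ hZ0)
  have hy' : (mat b y).1 = B * Z.map (Int.cast : ℤ → ℚ) := by rw [hy]; rfl
  refine ⟨y, ?_, ?_, ?_⟩
  · rw [hy']
    exact hB2.mul fun i j => intCast_mem _ _
  · rw [mat_mul, hy', ← Matrix.mul_assoc]
    exact hB3.mul fun i j => intCast_mem _ _
  · rwa [hy']

theorem mat_inv (g : V ≃ₗ[ℚ] V) :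
    (mat b g⁻¹).1 = ((mat b g).1.det)⁻¹ • (mat b g).1.adjugate := by
  rw [← Matrix.inv_eq_left_inv (mat_inv_mul b g), Matrix.inv_def, Ring.inverse_eq_inv']

theorem det_ne (g : V ≃ₗ[ℚ] V) : (mat b g).1.det ≠ 0 := by
  have := congrArg Matrix.det (mat_mul_inv b g)
  rw [Matrix.det_mul, Matrix.det_one] at this
  exact left_ne_zero_of_mul_eq_one this

theorem compact_units {K₁ K₂ : Set (Matrix (Fin d) (Fin d) (RP P))} (h₁ : IsCompact K₁)
    (h₂ : IsCompact K₂) : IsCompact {u : Amb d P | u.1 ∈ K₁ ∧ (u⁻¹).1 ∈ K₂} := by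
  have h := Units.isClosedEmbedding_embedProduct.isCompact_preimage
    (h₁.prod (h₂.image MulOpposite.continuous_op))
  convert h using 1
  ext u
  exact ⟨fun hu => ⟨hu.1, _, hu.2, rfl⟩,
    fun ⟨h1, _, h2, h3⟩ => ⟨h1, MulOpposite.op_injective h3 ▸ h2⟩⟩

theorem same_class {S : Subring ℚ} {X Y Y' : Matrix (Fin d) (Fin d) ℚ} {n : ℚ} (hn : n ≠ 0)
    (hY : Y * Y' = 1) (hY' : InM S (n • Y')) (hXY : ∀ i j, (X i j - Y i j) / n ∈ S) :
    InM S (X * Y') := by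
  let Z : Matrix (Fin d) (Fin d) ℚ := Matrix.of fun i j => (X i j - Y i j) / n
  have hZ : InM S Z := hXY
  have h1 : X = Y + n • Z := by
    ext i j
    simp only [Z, Matrix.add_apply, Matrix.smul_apply, Matrix.of_apply, smul_eq_mul]
    field_simp
    ring
  have h2 : X * Y' = 1 + Z * (n • Y') := by
    rw [h1, Matrix.add_mul, hY, Matrix.smul_mul, Matrix.mul_smul]
  rw [h2]
  exact inM_one.add (hZ.mul hY')

/-- Cocompactness for rational points. -/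
theorem coc_rat (hd : ∀ g ∈ T.grp, |LinearMap.det (g : Module.End ℚ V)| = 1)
    (ha : ∀ x : V, x ≠ 0 → ∃ i, T.deg i ≠ 0 ∧ T.τ i (fun _ => x) ≠ 0) :
    ∃ K : Set (Amb d P), IsCompact K ∧
      ∀ g ∈ T.grp, ∃ γ ∈ T.grp ⊓ IntG b P, (emb b P γ)⁻¹ * emb b P g ∈ K := by
  have := T.fin
  obtain ⟨C, hC, hred⟩ := reduce b P T hd ha
  obtain ⟨D, hD, hint⟩ := tau_int b T
  obtain ⟨C₀, hC₀, hbd⟩ := tau_bd b T
  let K₁ : Set (Matrix (Fin d) (Fin d) (RP P)) :=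
    Set.pi Set.univ fun _ => Set.pi Set.univ fun _ => Metric.closedBall 0 C
  have hK₁ : IsCompact K₁ :=
    isCompact_univ_pi fun _ => isCompact_univ_pi fun _ => isCompact_closedBall 0 C
  let F : Set ℚ := {x | x ∈ ZS (P : Set Nat.Primes)ᶜ ∧ algebraMap ℚ (RP P) x ∈ Matrix.det '' K₁}
  have hF : F.Finite := finite_cpt P (hK₁.image continuous_id.matrix_det)
  let K₂ : Set (Matrix (Fin d) (Fin d) (RP P)) :=
    ⋃ x ∈ F, (fun M => algebraMap ℚ (RP P) x⁻¹ • M.adjugate) '' K₁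
  have hK₂ : IsCompact K₂ := hF.isCompact_biUnion fun x _ =>
    hK₁.image (continuous_id.matrix_adjugate.fun_const_smul _)
  obtain ⟨n, hn, hnF⟩ := exists_den (hF.image fun x => x⁻¹)
  have : NeZero n := ⟨hn⟩
  obtain ⟨r, hr⟩ := exists_res (P : Set Nat.Primes)ᶜ n hn
  let s : Set (V ≃ₗ[ℚ] V) := {a | InM (ZS (P : Set Nat.Primes)ᶜ) (mat b a).1 ∧
    ∃ y : V ≃ₗ[ℚ] V, a * y⁻¹ ∈ T.grp ∧ InM (ZS (P : Set Nat.Primes)) (mat b y).1 ∧
      ∀ i j, |(((mat b y).1 i j : ℚ) : ℝ)| ≤ C}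
  have hy1 : ∀ y : V ≃ₗ[ℚ] V, InM (ZS (P : Set Nat.Primes)) (mat b y).1 →
      (∀ i j, |(((mat b y).1 i j : ℚ) : ℝ)| ≤ C) → (emb b P y).1 ∈ K₁ :=
    fun y h1 h2 i _ j _ => mem_closedBall_zero_iff.2 (norm_le_of P hC (h2 i j) (h1 i j))
  have hdet : ∀ a y : V ≃ₗ[ℚ] V, a * y⁻¹ ∈ T.grp →
      ∃ e : ℚ, |e| = 1 ∧ (mat b y).1.det = e * (mat b a).1.det := by
    intro a y h
    refine ⟨(mat b (a * y⁻¹)⁻¹).1.det, ?_, ?_⟩
    · rw [det_mat]
      exact hd _ (T.grp.inv_mem h)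
    · rw [← Matrix.det_mul, ← mat_mul]
      congr 3
      group
  have hyF : ∀ a y : V ≃ₗ[ℚ] V, InM (ZS (P : Set Nat.Primes)ᶜ) (mat b a).1 → a * y⁻¹ ∈ T.grp →
      (emb b P y).1 ∈ K₁ → (mat b y).1.det ∈ F := by
    intro a y h1 h2 h3
    obtain ⟨e, he, h4⟩ := hdet a y h2
    refine ⟨?_, _, h3, ?_⟩
    · rw [h4]
      exact (ZS _).mul_mem (mem_of_abs_eq_one _ he) h1.det
    · exact ((algebraMap ℚ (RP P)).map_det _).symm
  have hinv : ∀ a ∈ s, InM (ZS (P : Set Nat.Primes)ᶜ) ((n : ℚ) • (mat b a⁻¹).1) := by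
    rintro a ⟨h1, y, h2, h3, h4⟩
    obtain ⟨e, he, h5⟩ := hdet a y h2
    obtain ⟨z, hz⟩ := hnF _ ⟨_, hyF a y h1 h2 (hy1 y h3 h4), rfl⟩
    rw [mat_inv, smul_smul]
    refine h1.adjugate.smul ?_
    have he0 : e ≠ 0 := by
      rintro rfl
      simp at he
    have h6 : (n : ℚ) * ((mat b a).1.det)⁻¹ = e * z := by
      rw [← hz, h5]
      have := det_ne b a
      field_simp
    rw [h6]
    exact (ZS _).mul_mem (mem_of_abs_eq_one _ he) (intCast_mem _ _)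
  let f : (V ≃ₗ[ℚ] V) → (∀ i : T.I, (Fin (T.deg i) → Fin d) → ℚ) × (Fin d → Fin d → ZMod n) :=
    fun a => (fun i J => T.τ i fun k => a (b (J k)), fun i j => r ((mat b a).1 i j))
  have hfin : (f '' s).Finite := by
    have h0 : ∀ i : T.I, {x : ℚ | (D : ℚ) * x ∈ ZS (P : Set Nat.Primes)ᶜ ∧
        ‖algebraMap ℚ (RP P) ((D : ℚ) * x)‖ ≤ max 1 (D * (C₀ * C ^ T.deg i))}.Finite := fun i =>
      (finite_bdd P _).preimage (f := fun x : ℚ => (D : ℚ) * x)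
        (mul_right_injective₀ (Nat.cast_ne_zero.2 hD)).injOn
    refine ((Set.Finite.pi' fun i => Set.Finite.pi' fun _ : Fin (T.deg i) → Fin d => h0 i).prod
      Set.finite_univ).subset ?_
    rintro _ ⟨a, ⟨h1, y, h2, h3, h4⟩, rfl⟩
    refine ⟨fun i J => ⟨hint _ i _ fun k j => ?_, ?_⟩, trivial⟩
    · rw [repr_basis]
      exact h1 _ _
    · have h5 : (T.τ i fun k => a (b (J k))) = T.τ i fun k => y (b (J k)) := by
        rw [← h2 i fun k => y (b (J k))]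
        congr 1
        funext k
        simp
      change ‖algebraMap ℚ (RP P) ((D : ℚ) * T.τ i fun k => a (b (J k)))‖ ≤ _
      rw [h5]
      refine norm_le_of P (le_max_left _ _) (le_trans ?_ (le_max_right _ _))
        (hint _ i _ fun k j => ?_)
      · push_cast
        rw [abs_mul, Nat.abs_cast]
        refine mul_le_mul_of_nonneg_left (hbd i _ C (by linarith) fun k j => ?_) (Nat.cast_nonneg _)
        rw [repr_basis]
        exact h4 _ _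
      · rw [repr_basis]
        exact h3 _ _
  obtain ⟨t, ht, hts, hrep⟩ := exists_reps s f hfin
  refine ⟨emb b P '' t * {u : Amb d P | u.1 ∈ K₁ ∧ (u⁻¹).1 ∈ K₂}⁻¹,
    (ht.image _).isCompact.mul (compact_units P hK₁ hK₂).inv, fun g hg => ?_⟩
  obtain ⟨y, h1, h2, h3⟩ := hred g hg
  have hg' : g * y * y⁻¹ ∈ T.grp := by rwa [mul_inv_cancel_right]
  have hs : g * y ∈ s := ⟨h2, y, hg', h1, h3⟩
  obtain ⟨a, hat, hfa⟩ := hrep _ hs
  have has := hts hat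
  have hn' : (n : ℚ) ≠ 0 := Nat.cast_ne_zero.2 hn
  have hra : ∀ i j, r ((mat b (g * y)).1 i j) = r ((mat b a).1 i j) := fun i j =>
    congrFun (congrFun (congrArg Prod.snd hfa) i) j
  refine ⟨g * y * a⁻¹, ⟨fun i x => ?_, (mem_IntG' b P _).2 ⟨?_, ?_⟩⟩, ?_⟩
  · have h4 : (T.τ i).compLinearMap (fun _ => ((g * y : V ≃ₗ[ℚ] V) : V →ₗ[ℚ] V)) =
        (T.τ i).compLinearMap fun _ => (a : V →ₗ[ℚ] V) :=
      Module.Basis.ext_multilinear (fun _ => b) fun J =>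
        congrFun (congrFun (congrArg Prod.fst hfa) i) J
    have h5 := DFunLike.congr_fun h4 fun k => a⁻¹ (x k)
    simp only [MultilinearMap.compLinearMap_apply, LinearEquiv.coe_coe, LinearEquiv.coe_inv,
      LinearEquiv.apply_symm_apply] at h5
    exact h5
  · rw [mat_mul]
    exact same_class hn' (mat_mul_inv b a) (hinv a has) fun i j =>
      hr _ (h2 i j) _ (has.1 i j) (hra i j)
  · rw [mul_inv_rev, inv_inv, mat_mul]
    exact same_class hn' (mat_mul_inv b _) (hinv _ hs) fun i j =>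
      hr _ (has.1 i j) _ (h2 i j) (hra i j).symm
  · have h4 : (emb b P (g * y * a⁻¹))⁻¹ * emb b P g = emb b P a * (emb b P y)⁻¹ := by
      simp only [map_mul, map_inv]
      group
    rw [h4]
    refine Set.mul_mem_mul ⟨a, hat, rfl⟩ (Set.inv_mem_inv.2 ⟨hy1 y h1 h3, ?_⟩)
    refine Set.mem_biUnion (hyF _ y h2 hg' (hy1 y h1 h3)) ⟨_, hy1 y h1 h3, ?_⟩
    rw [← map_inv, emb_val, emb_val, mat_inv]
    have h5 := (algebraMap ℚ (RP P)).map_adjugate (mat b y).1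
    rw [RingHom.mapMatrix_apply, RingHom.mapMatrix_apply] at h5
    change algebraMap ℚ (RP P) _ • Matrix.adjugate _ = _
    rw [← h5]
    ext1 i j
    simp only [Matrix.smul_apply, Matrix.map_apply, smul_eq_mul, map_mul]

end

theorem cocStmt : CocStmt := by
  intro V _ _ d b P T hd ha
  obtain ⟨K, hK, h⟩ := coc_rat b P T hd ha
  obtain ⟨U, hU, hU1⟩ := exists_compact_mem_nhds (1 : Amb d P)
  refine ⟨K * U, hK.mul hU, fun x hx => ?_⟩
  have h1 : (fun k : Amb d P => k⁻¹ * x) ⁻¹' U ∈ 𝓝 x :=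
    (continuous_inv.mul continuous_const).continuousAt.preimage_mem_nhds
      (by
        change U ∈ 𝓝 (x⁻¹ * x)
        rwa [inv_mul_cancel])
  obtain ⟨_, hk, g, hg, rfl⟩ := mem_closure_iff_nhds.1 hx _ h1
  obtain ⟨γ, hγ, h2⟩ := h g hg
  refine ⟨γ, hγ, ?_⟩
  have h3 : (emb b P γ)⁻¹ * x = ((emb b P γ)⁻¹ * emb b P g) * ((emb b P g)⁻¹ * x) := by group
  rw [h3]
  exact Set.mul_mem_mul h2 hk

end Vale.Agent.P011N.G1
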