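import Vale.Agent.P011N.G1.Int

/-!
Discreteness and commensuration.
-/

open Topology Module

namespace Vale.Agent.P011N.G1

section

variable {V : Type} [AddCommGroup V] [Module ℚ V] {d : ℕ} (b : Basis (Fin d) ℚ V)
  (P : Finset Nat.Primes)

theorem mat_val (g : V ≃ₗ[ℚ] V) :
    (mat b g).1 = LinearMap.toMatrix b b (g : V →ₗ[ℚ] V) := rfl

theorem mat_inj : Function.Injective (mat b) := by
  intro g h hgh
  have h1 : (mat b g).1 = (mat b h).1 := by rw [hgh]
  rw [mat_val, mat_val] at h1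
  exact LinearEquiv.toLinearMap_injective ((LinearMap.toMatrix b b).injective h1)

theorem mat_surj : Function.Surjective (mat b) := by
  intro u
  refine ⟨LinearMap.GeneralLinearGroup.generalLinearEquiv ℚ V
    (Units.map ((LinearMap.toMatrixAlgEquiv b).symm :
      Matrix (Fin d) (Fin d) ℚ →* Module.End ℚ V) u), ?_⟩
  ext1
  simp [mat]

theorem emb_val (g : V ≃ₗ[ℚ] V) :
    (emb b P g).1 = ((mat b g).1).map (algebraMap ℚ (RP P)) := rfl

theorem emb_apply (g : V ≃ₗ[ℚ] V) (i j : Fin d) :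
    (emb b P g).1 i j = algebraMap ℚ (RP P) ((mat b g).1 i j) := rfl

theorem emb_inj : Function.Injective (emb b P) := by
  intro g h hgh
  refine mat_inj b (Units.ext (Matrix.ext fun i j => ?_))
  have h1 : (emb b P g).1 i j = (emb b P h).1 i j := by rw [hgh]
  rw [emb_apply, emb_apply] at h1
  exact (algebraMap ℚ (RP P)).injective h1

theorem mat_mul_inv (g : V ≃ₗ[ℚ] V) : (mat b g).1 * (mat b g⁻¹).1 = 1 := by
  rw [← Units.val_mul, ← map_mul, mul_inv_cancel, map_one, Units.val_one]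

theorem mat_inv_mul (g : V ≃ₗ[ℚ] V) : (mat b g⁻¹).1 * (mat b g).1 = 1 := by
  rw [← Units.val_mul, ← map_mul, inv_mul_cancel, map_one, Units.val_one]

theorem mat_mul (g h : V ≃ₗ[ℚ] V) : (mat b (g * h)).1 = (mat b g).1 * (mat b h).1 := by
  rw [map_mul, Units.val_mul]

/-- The set `IntS` as a group. -/
def intG : Subgroup (V ≃ₗ[ℚ] V) where
  carrier := IntS b P
  mul_mem' := fun {x y} hx hy => by
    refine ⟨?_, ?_⟩
    · rw [mat_mul]
      exact InM.mul (S := ZS (P : Set Nat.Primes)ᶜ) hx.1 hy.1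
    · rw [mul_inv_rev, mat_mul]
      exact InM.mul (S := ZS (P : Set Nat.Primes)ᶜ) hy.2 hx.2
  one_mem' := by
    refine ⟨?_, ?_⟩
    · rw [map_one]
      exact inM_one (S := ZS (P : Set Nat.Primes)ᶜ)
    · rw [inv_one, map_one]
      exact inM_one (S := ZS (P : Set Nat.Primes)ᶜ)
  inv_mem' := fun {x} hx => ⟨hx.2, by rw [inv_inv]; exact hx.1⟩

theorem mem_IntG (g : V ≃ₗ[ℚ] V) : g ∈ IntG b P ↔ g ∈ IntS b P := by
  have : IntG b P = intG b P := Subgroup.closure_eq (intG b P)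
  rw [this]
  rfl

theorem mem_IntG' (g : V ≃ₗ[ℚ] V) : g ∈ IntG b P ↔
    InM (ZS (P : Set Nat.Primes)ᶜ) (mat b g).1 ∧ InM (ZS (P : Set Nat.Primes)ᶜ) (mat b g⁻¹).1 :=
  mem_IntG b P g

theorem finite_of_compact (C : Set (Amb d P)) (hC : IsCompact C) :
    {g | g ∈ IntG b P ∧ emb b P g ∈ C}.Finite := by
  have h1 : ∀ i j : Fin d, {x : ℚ | x ∈ ZS (P : Set Nat.Primes)ᶜ ∧
      algebraMap ℚ (RP P) x ∈ (fun u : Amb d P => u.1 i j) '' C}.Finite := fun i j =>
    finite_cpt P (hC.image (Units.continuous_val.matrix_elem i j))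
  have h2 := Set.Finite.pi' fun i => Set.Finite.pi' fun j => h1 i j
  refine Set.Finite.of_finite_image (f := fun g => (mat b g).1) (h2.subset ?_) ?_
  · rintro _ ⟨g, hg, rfl⟩ i j
    exact ⟨((mem_IntG' b P g).1 hg.1).1 i j, _, hg.2, rfl⟩
  · intro g _ h _ hgh
    exact mat_inj b (Units.ext hgh)

theorem conj_aux {S : Subring ℚ} {A A' X Y Y' : Matrix (Fin d) (Fin d) ℚ} {m m' : ℚ}
    (hm : m ≠ 0) (hm' : m' ≠ 0) (hA : InM S (m • A)) (hA' : InM S (m' • A')) (hAA : A * A' = 1)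
    (hY : Y' * Y = 1) (hY' : InM S Y') (hXY : ∀ i j, (X i j - Y i j) / (m * m') ∈ S) :
    InM S (A * (Y' * X) * A') := by
  let Z : Matrix (Fin d) (Fin d) ℚ := Matrix.of fun i j => (X i j - Y i j) / (m * m')
  have hZ : InM S Z := hXY
  have h1 : X = Y + (m * m') • Z := by
    ext i j
    simp only [Z, Matrix.add_apply, Matrix.smul_apply, Matrix.of_apply, smul_eq_mul]
    field_simp
    ring
  have h2 : A * (Y' * X) * A' = 1 + (m • A) * (Y' * Z) * (m' • A') := by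
    rw [h1, Matrix.mul_add, hY, Matrix.mul_add, Matrix.add_mul, Matrix.mul_one, hAA]
    simp only [Matrix.mul_smul, Matrix.smul_mul, smul_smul, mul_comm m']
  rw [h2]
  exact inM_one.add ((hA.mul (hY'.mul hZ)).mul hA')

theorem relIndex_conj (g : V ≃ₗ[ℚ] V) :
    ((IntG b P).comap (MulAut.conj g).toMonoidHom).relIndex (IntG b P) ≠ 0 := by
  obtain ⟨m, hm, -, hA⟩ := exists_den_mat (P : Set Nat.Primes)ᶜ (mat b g).1
  obtain ⟨m', hm', -, hA'⟩ := exists_den_mat (P : Set Nat.Primes)ᶜ (mat b g⁻¹).1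
  have hmm : m * m' ≠ 0 := mul_ne_zero hm hm'
  have : NeZero (m * m') := ⟨hmm⟩
  obtain ⟨r, hr⟩ := exists_res (P : Set Nat.Primes)ᶜ (m * m') hmm
  let f : IntG b P → (Fin d → Fin d → ZMod (m * m')) × (Fin d → Fin d → ZMod (m * m')) :=
    fun γ => (fun i j => r ((mat b γ.1).1 i j), fun i j => r ((mat b γ.1⁻¹).1 i j))
  have key : ∀ x y : IntG b P, f x = f y → x⁻¹ * y ∈
      ((IntG b P).comap (MulAut.conj g).toMonoidHom).subgroupOf (IntG b P) := by
    intro x y hxy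
    have hx := (mem_IntG' b P x.1).1 x.2
    have hy := (mem_IntG' b P y.1).1 y.2
    have h1 : ∀ i j, r ((mat b y.1).1 i j) = r ((mat b x.1).1 i j) := fun i j =>
      (congrFun (congrFun (congrArg Prod.fst hxy) i) j).symm
    change g * (x.1⁻¹ * y.1) * g⁻¹ ∈ IntG b P
    rw [mem_IntG']
    refine ⟨?_, ?_⟩
    · rw [mat_mul, mat_mul, mat_mul]
      refine conj_aux (Nat.cast_ne_zero.2 hm) (Nat.cast_ne_zero.2 hm') hA hA' (mat_mul_inv b g)
        (mat_inv_mul b x.1) hx.2 fun i j => ?_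
      have := hr _ (hy.1 i j) _ (hx.1 i j) (h1 i j)
      rwa [Nat.cast_mul] at this
    · have h2 : (g * (x.1⁻¹ * y.1) * g⁻¹)⁻¹ = g * (y.1⁻¹ * x.1) * g⁻¹ := by group
      rw [h2, mat_mul, mat_mul, mat_mul]
      refine conj_aux (Nat.cast_ne_zero.2 hm) (Nat.cast_ne_zero.2 hm') hA hA' (mat_mul_inv b g)
        (mat_inv_mul b y.1) hy.2 fun i j => ?_
      have := hr _ (hx.1 i j) _ (hy.1 i j) (h1 i j).symm
      rwa [Nat.cast_mul] at this
  have hfin : Finite (IntG b P ⧸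
      ((IntG b P).comap (MulAut.conj g).toMonoidHom).subgroupOf (IntG b P)) := by
    refine Finite.of_injective (fun q => f q.out) fun q q' h => ?_
    rw [← q.out_eq', ← q'.out_eq']
    exact QuotientGroup.eq.2 (key _ _ h)
  exact Subgroup.index_ne_zero_of_finite

theorem exists_P (g : V ≃ₗ[ℚ] V) : ∃ P' : Finset Nat.Primes, P ⊆ P' ∧ g ∈ IntG b P' := by
  classical
  obtain ⟨m, hm, h⟩ := exists_den
    ((Set.finite_range fun p : Fin d × Fin d => (mat b g).1 p.1 p.2).union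
      (Set.finite_range fun p : Fin d × Fin d => (mat b g⁻¹).1 p.1 p.2))
  have hfin : {p : Nat.Primes | p.1 ∣ m}.Finite :=
    ((Set.finite_Iic m).preimage Subtype.val_injective.injOn).subset fun p hp =>
      Nat.le_of_dvd (Nat.pos_of_ne_zero hm) hp
  have h1 : (m : ℚ)⁻¹ ∈ ZS ((P ∪ hfin.toFinset : Finset Nat.Primes) : Set Nat.Primes)ᶜ :=
    inv_mem_ZS fun p hp hd => hp (by simp [hd])
  have h2 : ∀ x : ℚ, (∃ z : ℤ, (m : ℚ) * x = z) →
      x ∈ ZS ((P ∪ hfin.toFinset : Finset Nat.Primes) : Set Nat.Primes)ᶜ := by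
    rintro x ⟨z, hz⟩
    have hm' : (m : ℚ) ≠ 0 := Nat.cast_ne_zero.2 hm
    have : x = (m : ℚ)⁻¹ * z := by
      rw [← hz]
      field_simp
    rw [this]
    exact (ZS _).mul_mem h1 (intCast_mem _ _)
  refine ⟨P ∪ hfin.toFinset, Finset.subset_union_left, (mem_IntG' b _ g).2 ⟨?_, ?_⟩⟩
  · exact fun i j => h2 _ (h _ (Or.inl ⟨(i, j), rfl⟩))
  · exact fun i j => h2 _ (h _ (Or.inr ⟨(i, j), rfl⟩))

end

theorem discStmt : DiscStmt := fun _ _ _ _ b P =>
  ⟨emb_inj b P, mem_IntG b P, finite_of_compact b P, relIndex_conj b P, exists_P b P⟩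

end Vale.Agent.P011N.G1
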