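import Vale.Agent.P011N.Iface

/-!
Rational numbers which are integral at a set of primes.
-/

open Topology Module

namespace Vale.Agent.P011N.G1

/-- The rational numbers which are integral at the primes of `Q`. -/
def ZS (Q : Set Nat.Primes) : Subring ℚ where
  carrier := {x | ∀ p ∈ Q, padicNorm p.1 x ≤ 1}
  mul_mem' := fun {a b} ha hb p hp => by
    rw [padicNorm.mul]
    exact mul_le_one₀ (ha p hp) (padicNorm.nonneg _) (hb p hp)
  one_mem' := fun p _ => by simp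
  add_mem' := fun {a b} ha hb p hp =>
    padicNorm.nonarchimedean.trans (max_le (ha p hp) (hb p hp))
  zero_mem' := fun p _ => by simp
  neg_mem' := fun {a} ha p hp => by
    rw [padicNorm.neg]
    exact ha p hp

theorem mem_ZS {Q : Set Nat.Primes} {x : ℚ} : x ∈ ZS Q ↔ ∀ p ∈ Q, padicNorm p.1 x ≤ 1 := Iff.rfl

theorem ZS_anti {Q Q' : Set Nat.Primes} (h : Q ⊆ Q') {x : ℚ} (hx : x ∈ ZS Q') : x ∈ ZS Q :=
  fun p hp => hx p (h hp)

theorem inv_mem_ZS {Q : Set Nat.Primes} {n : ℕ} (h : ∀ p ∈ Q, ¬ p.1 ∣ n) : (n : ℚ)⁻¹ ∈ ZS Q := by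
  intro p hp
  have h1 : padicNorm p.1 (n : ℚ) = 1 := (padicNorm.nat_eq_one_iff n).2 (h p hp)
  rw [← one_div, padicNorm.div, h1]
  simp

theorem not_dvd_den {x : ℚ} (p : Nat.Primes) (h : padicNorm p.1 x ≤ 1) : ¬ p.1 ∣ x.den := by
  intro hd
  have hnum : ¬ (p.1 : ℤ) ∣ x.num := by
    intro h2
    have h3 : p.1 ∣ x.num.natAbs := Int.natCast_dvd.1 h2
    have h4 := Nat.dvd_gcd h3 hd
    rw [x.reduced] at h4
    exact p.2.one_lt.ne' (Nat.dvd_one.1 h4)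
  have h1 : padicNorm p.1 (x.num : ℚ) = 1 := (padicNorm.int_eq_one_iff _).2 hnum
  have h2 : padicNorm p.1 (x.den : ℚ) < 1 := (padicNorm.nat_lt_one_iff _).2 hd
  have h3 : (x.num : ℚ) = x * x.den := (Rat.mul_den_eq_num x).symm
  rw [h3, padicNorm.mul] at h1
  have h4 := padicNorm.nonneg (p := p.1) x
  have h5 := padicNorm.nonneg (p := p.1) (x.den : ℚ)
  nlinarith

theorem inv_den_mem {Q : Set Nat.Primes} {x : ℚ} (h : x ∈ ZS Q) : (x.den : ℚ)⁻¹ ∈ ZS Q :=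
  inv_mem_ZS fun p hp => not_dvd_den p (h p hp)

theorem int_of_mem {Q : Set Nat.Primes} {x : ℚ} (h1 : x ∈ ZS Q) (h2 : x ∈ ZS Qᶜ) :
    ∃ z : ℤ, x = z := by
  refine ⟨x.num, (Rat.coe_int_num_of_den_eq_one ?_).symm⟩
  by_contra h
  obtain ⟨p, hp, hd⟩ := Nat.exists_prime_and_dvd h
  by_cases hq : (⟨p, hp⟩ : Nat.Primes) ∈ Q
  · exact not_dvd_den ⟨p, hp⟩ (h1 _ hq) hd
  · exact not_dvd_den ⟨p, hp⟩ (h2 _ hq) hd

theorem split (Q : Set Nat.Primes) (n : ℕ) (hn : n ≠ 0) :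
    ∃ a b : ℕ, n = a * b ∧ (∀ p ∈ Q, ¬ p.1 ∣ a) ∧ ∀ p ∈ Qᶜ, ¬ p.1 ∣ b := by
  induction n using induction_on_primes with
  | zero => exact absurd rfl hn
  | one => exact ⟨1, 1, rfl, fun p _ => p.2.not_dvd_one, fun p _ => p.2.not_dvd_one⟩
  | prime_mul p n hp ih =>
    obtain ⟨a, b, rfl, ha, hb⟩ := ih (right_ne_zero_of_mul hn)
    by_cases hq : (⟨p, hp⟩ : Nat.Primes) ∈ Q
    · refine ⟨a, p * b, by ring, ha, fun q hq' hd => ?_⟩
      rcases (Nat.Prime.dvd_mul q.2).1 hd with h | h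
      · have : q = ⟨p, hp⟩ := Subtype.ext ((Nat.prime_dvd_prime_iff_eq q.2 hp).1 h)
        exact hq' (this ▸ hq)
      · exact hb q hq' h
    · refine ⟨p * a, b, by ring, fun q hq' hd => ?_, hb⟩
      rcases (Nat.Prime.dvd_mul q.2).1 hd with h | h
      · have : q = ⟨p, hp⟩ := Subtype.ext ((Nat.prime_dvd_prime_iff_eq q.2 hp).1 h)
        exact hq (this ▸ hq')
      · exact ha q hq' h

/-- A common denominator. -/
theorem exists_den {F : Set ℚ} (hF : F.Finite) :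
    ∃ m : ℕ, m ≠ 0 ∧ ∀ x ∈ F, ∃ z : ℤ, (m : ℚ) * x = z := by
  induction F, hF using Set.Finite.induction_on with
  | empty => exact ⟨1, one_ne_zero, fun x hx => hx.elim⟩
  | @insert a s _ _ ih =>
    obtain ⟨m, hm, h⟩ := ih
    refine ⟨m * a.den, mul_ne_zero hm a.den_ne_zero, fun x hx => ?_⟩
    rcases hx with rfl | hx
    · refine ⟨m * x.num, ?_⟩
      push_cast
      rw [mul_assoc, mul_comm (x.den : ℚ), Rat.mul_den_eq_num]
    · obtain ⟨z, hz⟩ := h x hx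
      refine ⟨z * a.den, ?_⟩
      push_cast
      rw [← hz]
      ring

/-- A common denominator which is a unit outside `Q`. -/
theorem exists_den' (Q : Set Nat.Primes) {F : Set ℚ} (hF : F.Finite) :
    ∃ m : ℕ, m ≠ 0 ∧ (m : ℚ)⁻¹ ∈ ZS Qᶜ ∧ ∀ x ∈ F, (m : ℚ) * x ∈ ZS Q := by
  obtain ⟨m, hm, h⟩ := exists_den hF
  obtain ⟨a, b, rfl, ha, hb⟩ := split Q m hm
  refine ⟨b, right_ne_zero_of_mul hm, inv_mem_ZS hb, fun x hx => ?_⟩
  obtain ⟨z, hz⟩ := h x hx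
  have ha0 : (a : ℚ) ≠ 0 := Nat.cast_ne_zero.2 (left_ne_zero_of_mul hm)
  have : (b : ℚ) * x = (a : ℚ)⁻¹ * z := by
    rw [← hz]
    push_cast
    field_simp
  rw [this]
  exact (ZS Q).mul_mem (inv_mem_ZS ha) (intCast_mem _ _)

/-- The residue rings are finite. -/
theorem exists_res (Q : Set Nat.Primes) (m : ℕ) (hm : m ≠ 0) :
    ∃ r : ℚ → ZMod m, ∀ x ∈ ZS Q, ∀ y ∈ ZS Q, r x = r y → (x - y) / m ∈ ZS Q := by
  have : NeZero m := ⟨hm⟩
  have key : ∀ x : ℚ, ∃ z : ℤ, x ∈ ZS Q → (x - z) / m ∈ ZS Q := by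
    intro x
    have h0 : ∃ i j : ℕ, i < j ∧ (x.den : ZMod m) ^ i = (x.den : ZMod m) ^ j := by
      obtain ⟨i, j, hij, h⟩ :=
        Finite.exists_ne_map_eq_of_infinite fun i : ℕ => (x.den : ZMod m) ^ i
      rcases lt_or_gt_of_ne hij with h1 | h1
      · exact ⟨i, j, h1, h⟩
      · exact ⟨j, i, h1, h.symm⟩
    obtain ⟨i, j, hij, h⟩ := h0
    obtain ⟨k, rfl⟩ := Nat.exists_eq_add_of_lt hij
    have h1 : (m : ℤ) ∣ (x.den : ℤ) ^ i - (x.den : ℤ) ^ (i + k + 1) := by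
      rw [← ZMod.intCast_zmod_eq_zero_iff_dvd]
      push_cast
      exact sub_eq_zero.2 h
    obtain ⟨t, ht⟩ := h1
    refine ⟨x.num * (x.den : ℤ) ^ k, fun hx => ?_⟩
    have hd : (x.den : ℚ) ≠ 0 := Nat.cast_ne_zero.2 x.den_ne_zero
    have hm' : (m : ℚ) ≠ 0 := Nat.cast_ne_zero.2 hm
    have ht' : (x.den : ℚ) ^ i - (x.den : ℚ) ^ (i + k + 1) = m * t := by exact_mod_cast ht
    have h2 : (x - (x.num * (x.den : ℤ) ^ k : ℤ)) / m = x * t * ((x.den : ℚ)⁻¹) ^ i := by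
      have h3 : (x.num : ℚ) = x * x.den := (Rat.mul_den_eq_num x).symm
      push_cast
      rw [h3, inv_pow]
      field_simp
      linear_combination x * ht'
    rw [h2]
    exact (ZS Q).mul_mem ((ZS Q).mul_mem hx (intCast_mem _ _)) ((ZS Q).pow_mem (inv_den_mem hx) _)
  choose z hz using key
  refine ⟨fun x => (z x : ZMod m), fun x hx y hy h => ?_⟩
  have h1 : (m : ℤ) ∣ z x - z y := by
    rw [← ZMod.intCast_zmod_eq_zero_iff_dvd]
    push_cast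
    exact sub_eq_zero.2 h
  obtain ⟨t, ht⟩ := h1
  have hm' : (m : ℚ) ≠ 0 := Nat.cast_ne_zero.2 hm
  have ht' : (z x : ℚ) - z y = m * t := by exact_mod_cast ht
  have h2 : (x - y) / m = (x - z x) / m - (y - z y) / m + t := by
    field_simp
    linear_combination ht'
  rw [h2]
  exact (ZS Q).add_mem ((ZS Q).sub_mem (hz x hx) (hz y hy)) (intCast_mem _ _)

theorem abs_le_norm (P : Finset Nat.Primes) (x : ℚ) :
    |(x : ℝ)| ≤ ‖algebraMap ℚ (RP P) x‖ :=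
  norm_fst_le (algebraMap ℚ (RP P) x)

theorem padic_le_norm (P : Finset Nat.Primes) (x : ℚ) (p : Nat.Primes) (hp : p ∈ P) :
    (padicNorm p.1 x : ℝ) ≤ ‖algebraMap ℚ (RP P) x‖ := by
  have h1 := norm_snd_le (algebraMap ℚ (RP P) x)
  have h2 := norm_le_pi_norm (algebraMap ℚ (RP P) x).2 ⟨p, hp⟩
  have h3 : (algebraMap ℚ (RP P) x).2 ⟨p, hp⟩ = (x : ℚ_[p.1]) := by simp
  rw [h3, Padic.eq_padicNorm] at h2
  exact h2.trans h1

theorem norm_le_of (P : Finset Nat.Primes) {x : ℚ} {C : ℝ} (hC : 1 ≤ C) (h1 : |(x : ℝ)| ≤ C)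
    (h2 : x ∈ ZS P) : ‖algebraMap ℚ (RP P) x‖ ≤ C := by
  rw [Prod.norm_def]
  refine max_le h1 ((pi_norm_le_iff_of_nonneg (by linarith)).2 fun p => ?_)
  have h3 : (algebraMap ℚ (RP P) x).2 p = (x : ℚ_[p.1.1]) := by simp
  rw [h3, Padic.eq_padicNorm]
  have h4 : padicNorm p.1.1 x ≤ 1 := h2 p.1 p.2
  have h5 : (padicNorm p.1.1 x : ℝ) ≤ 1 := by exact_mod_cast h4
  linarith

/-- The ring of `P`-integers is discrete. -/
theorem finite_bdd (P : Finset Nat.Primes) (B : ℝ) :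
    {x : ℚ | x ∈ ZS (P : Set Nat.Primes)ᶜ ∧ ‖algebraMap ℚ (RP P) x‖ ≤ B}.Finite := by
  obtain ⟨k, hk⟩ := pow_unbounded_of_one_lt B (one_lt_two (α := ℝ))
  set N : ℕ := (∏ p ∈ P, p.1) ^ k with hN
  have hN0 : N ≠ 0 := pow_ne_zero _ (Finset.prod_ne_zero_iff.2 fun p _ => p.2.ne_zero)
  have hN1 : (N : ℚ) ≠ 0 := Nat.cast_ne_zero.2 hN0
  have hfin : {z : ℤ | |(z : ℝ)| ≤ N * B}.Finite := by
    refine (Set.finite_Icc (-⌈N * B⌉) ⌈N * B⌉).subset fun z hz => ?_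
    have h1 : |(z : ℝ)| ≤ (⌈N * B⌉ : ℤ) := le_trans hz (Int.le_ceil _)
    have h2 : |z| ≤ ⌈N * B⌉ := by exact_mod_cast h1
    exact abs_le.1 h2
  refine (hfin.image fun z : ℤ => (z : ℚ) / N).subset fun x hx => ?_
  obtain ⟨hx1, hx2⟩ := hx
  have h1 : (N : ℚ) * x ∈ ZS (P : Set Nat.Primes) := by
    intro p hp
    obtain ⟨c, hc⟩ : p.1 ^ k ∣ N := pow_dvd_pow_of_dvd (Finset.dvd_prod_of_mem _ hp) k
    have h2 : (padicNorm p.1 x : ℝ) ≤ (p.1 : ℝ) ^ k := by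
      refine (padic_le_norm P x p hp).trans (hx2.trans (hk.le.trans ?_))
      exact pow_le_pow_left₀ zero_le_two (by exact_mod_cast p.2.two_le) k
    have h3 : padicNorm p.1 x ≤ (p.1 : ℚ) ^ k := by exact_mod_cast h2
    have h4 : padicNorm p.1 (N : ℚ) ≤ (p.1 : ℚ) ^ (-k : ℤ) := by
      have := (padicNorm.dvd_iff_norm_le (p := p.1) (n := k) (z := (N : ℤ))).1
        (by exact_mod_cast (⟨c, hc⟩ : p.1 ^ k ∣ N))
      simpa using this
    rw [padicNorm.mul]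
    have hp0 : (0 : ℚ) < p.1 := by exact_mod_cast p.2.pos
    calc padicNorm p.1 (N : ℚ) * padicNorm p.1 x ≤ (p.1 : ℚ) ^ (-k : ℤ) * (p.1 : ℚ) ^ k :=
          mul_le_mul h4 h3 (padicNorm.nonneg _) (by positivity)
      _ = 1 := by
          rw [zpow_neg, zpow_natCast]
          field_simp
  obtain ⟨z, hz⟩ := int_of_mem h1 ((ZS _).mul_mem (natCast_mem _ _) hx1)
  refine ⟨z, ?_, ?_⟩
  · have h2 : (z : ℝ) = N * (x : ℝ) := by exact_mod_cast hz.symm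
    have h3 := (abs_le_norm P x).trans hx2
    change |(z : ℝ)| ≤ N * B
    rw [h2, abs_mul, Nat.abs_cast]
    exact mul_le_mul_of_nonneg_left h3 (Nat.cast_nonneg _)
  · change (z : ℚ) / N = x
    rw [← hz]
    field_simp

theorem finite_cpt (P : Finset Nat.Primes) {C : Set (RP P)} (hC : IsCompact C) :
    {x : ℚ | x ∈ ZS (P : Set Nat.Primes)ᶜ ∧ algebraMap ℚ (RP P) x ∈ C}.Finite := by
  obtain ⟨B, hB⟩ := hC.isBounded.exists_norm_le
  exact (finite_bdd P B).subset fun x hx => ⟨hx.1, hB _ hx.2⟩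

/-! ### Matrices with entries in a subring -/

section

variable {d : ℕ} (S : Subring ℚ)

/-- The entries of the matrix lie in the subring. -/
def InM (M : Matrix (Fin d) (Fin d) ℚ) : Prop := ∀ i j, M i j ∈ S

variable {S}

theorem InM.mul {M N : Matrix (Fin d) (Fin d) ℚ} (hM : InM S M) (hN : InM S N) :
    InM S (M * N) := fun i j => by
  rw [Matrix.mul_apply]
  exact S.sum_mem fun k _ => S.mul_mem (hM i k) (hN k j)

theorem InM.add {M N : Matrix (Fin d) (Fin d) ℚ} (hM : InM S M) (hN : InM S N) :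
    InM S (M + N) := fun i j => S.add_mem (hM i j) (hN i j)

theorem InM.smul {c : ℚ} {M : Matrix (Fin d) (Fin d) ℚ} (hc : c ∈ S) (hM : InM S M) :
    InM S (c • M) := fun i j => S.mul_mem hc (hM i j)

theorem inM_one : InM S (1 : Matrix (Fin d) (Fin d) ℚ) := fun i j => by
  rw [Matrix.one_apply]
  split_ifs
  · exact S.one_mem
  · exact S.zero_mem

theorem InM.det {M : Matrix (Fin d) (Fin d) ℚ} (hM : InM S M) : M.det ∈ S := by
  rw [Matrix.det_apply']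
  exact S.sum_mem fun σ _ => S.mul_mem (intCast_mem _ _) (S.prod_mem fun i _ => hM _ _)

theorem InM.adjugate {M : Matrix (Fin d) (Fin d) ℚ} (hM : InM S M) : InM S M.adjugate := by
  intro i j
  rw [Matrix.adjugate_apply]
  refine InM.det fun k l => ?_
  rw [Matrix.updateRow_apply]
  split_ifs
  · rw [Pi.single_apply]
    split_ifs
    · exact S.one_mem
    · exact S.zero_mem
  · exact hM k l

theorem InM.mulVec {M : Matrix (Fin d) (Fin d) ℚ} (hM : InM S M) {v : Fin d → ℚ}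
    (hv : ∀ i, v i ∈ S) (i : Fin d) : M.mulVec v i ∈ S := by
  change ∑ k, M i k * v k ∈ S
  exact S.sum_mem fun k _ => S.mul_mem (hM i k) (hv k)

end

theorem exists_den_mat (Q : Set Nat.Primes) {d : ℕ} (M : Matrix (Fin d) (Fin d) ℚ) :
    ∃ m : ℕ, m ≠ 0 ∧ (m : ℚ)⁻¹ ∈ ZS Qᶜ ∧ InM (ZS Q) ((m : ℚ) • M) := by
  obtain ⟨m, h1, h2, h3⟩ := exists_den' Q (Set.finite_range fun p : Fin d × Fin d => M p.1 p.2)
  exact ⟨m, h1, h2, fun i j => h3 _ ⟨(i, j), rfl⟩⟩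

theorem intM_iff {d : ℕ} (P : Finset Nat.Primes) (M : Matrix (Fin d) (Fin d) ℚ) :
    IntM P M ↔ InM (ZS (P : Set Nat.Primes)ᶜ) M := Iff.rfl

/-- Finitely many classes. -/
theorem exists_reps {α F : Type} (s : Set α) (f : α → F) (hf : (f '' s).Finite) :
    ∃ t : Set α, t.Finite ∧ t ⊆ s ∧ ∀ a ∈ s, ∃ b ∈ t, f a = f b := by
  have h : ∀ y : f '' s, ∃ a ∈ s, f a = y := fun y => y.2
  choose g hg1 hg2 using h
  have := hf.to_subtype
  refine ⟨Set.range g, Set.finite_range g, ?_, fun a ha => ?_⟩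
  · rintro _ ⟨y, rfl⟩
    exact hg1 y
  · exact ⟨g ⟨f a, a, ha, rfl⟩, ⟨_, rfl⟩, (hg2 ⟨f a, a, ha, rfl⟩).symm⟩

theorem mem_of_abs_eq_one (S : Subring ℚ) {x : ℚ} (h : |x| = 1) : x ∈ S := by
  rcases (abs_eq zero_le_one).1 h with rfl | rfl
  · exact S.one_mem
  · exact S.neg_mem S.one_mem

/-- A basis of the lattice attached to a rational matrix. -/
theorem lattice_basis (Q : Set Nat.Primes) {d : ℕ} {H H' : Matrix (Fin d) (Fin d) ℚ}
    (hH : H * H' = 1) (hdet : |H.det| = 1) :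
    ∃ B : Matrix (Fin d) (Fin d) ℚ, B.det ≠ 0 ∧ |B.det| ≤ 1 ∧ InM (ZS Q) B ∧
      InM (ZS Qᶜ) (H * B) := by
  have hH' : H' * H = 1 := mul_eq_one_comm.1 hH
  let L : Submodule ℤ (Fin d → ℚ) :=
    { carrier := {y | (∀ i, y i ∈ ZS Q) ∧ ∀ i, H.mulVec y i ∈ ZS Qᶜ}
      add_mem' := fun {x y} hx hy => ⟨fun i => (ZS Q).add_mem (hx.1 i) (hy.1 i), fun i => by
        rw [Matrix.mulVec_add]
        exact (ZS Qᶜ).add_mem (hx.2 i) (hy.2 i)⟩
      zero_mem' := ⟨fun i => (ZS Q).zero_mem, fun i => by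
        rw [Matrix.mulVec_zero]
        exact (ZS Qᶜ).zero_mem⟩
      smul_mem' := fun c x hx => ⟨fun i => (ZS Q).zsmul_mem (hx.1 i) c, fun i => by
        rw [Matrix.mulVec_smul]
        exact (ZS Qᶜ).zsmul_mem (hx.2 i) c⟩ }
  have hcol : ∀ M : Matrix (Fin d) (Fin d) ℚ, InM (ZS Q) M → InM (ZS Qᶜ) (H * M) →
      ∀ j, (fun i => M i j) ∈ L := fun M h1 h2 j => ⟨fun i => h1 i j, fun i => h2 i j⟩
  obtain ⟨m₁, hm₁, hu₁, hM₁⟩ := exists_den_mat Qᶜ H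
  rw [compl_compl] at hu₁
  obtain ⟨m₂, hm₂, hu₂, hM₂⟩ := exists_den_mat Q H'
  obtain ⟨m₃, hm₃, -, hM₃⟩ := exists_den_mat Qᶜ H'
  have hq₁ : (m₁ : ℚ) ≠ 0 := Nat.cast_ne_zero.2 hm₁
  have hq₂ : (m₂ : ℚ) ≠ 0 := Nat.cast_ne_zero.2 hm₂
  have hq₃ : (m₃ : ℚ) ≠ 0 := Nat.cast_ne_zero.2 hm₃
  have hc₁ := hcol ((m₁ : ℚ) • 1) (inM_one.smul (natCast_mem _ _))
    (by rwa [Matrix.mul_smul, Matrix.mul_one])
  have hc₂ := hcol ((m₂ : ℚ) • H') hM₂
    (by rw [Matrix.mul_smul, hH]; exact inM_one.smul (natCast_mem _ _))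
  have hlat : Submodule.IsLattice ℚ L := by
    constructor
    · refine Submodule.FG.of_le (T := Submodule.span ℤ
        (Set.range fun i : Fin d => (Pi.single i (m₃ : ℚ)⁻¹ : Fin d → ℚ)))
        (Submodule.fg_span (Set.finite_range _)) fun y hy => ?_
      have h1 : ∀ i, ∃ z : ℤ, (m₃ : ℚ) * y i = z := by
        intro i
        refine int_of_mem ((ZS Q).mul_mem (natCast_mem _ _) (hy.1 i)) ?_
        have h2 := hM₃.mulVec hy.2 i
        rwa [Matrix.mulVec_mulVec, Matrix.smul_mul, hH', Matrix.smul_mulVec,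
          Matrix.one_mulVec] at h2
      choose z hz using h1
      refine (Submodule.mem_span_range_iff_exists_fun ℤ).2 ⟨z, funext fun i => ?_⟩
      simp only [Finset.sum_apply, Pi.smul_apply, Pi.single_apply, smul_ite, smul_zero,
        Finset.sum_ite_eq, Finset.mem_univ, if_true]
      rw [zsmul_eq_mul, ← hz]
      field_simp
    · rw [eq_top_iff, ← (Pi.basisFun ℚ (Fin d)).span_eq, Submodule.span_le]
      rintro _ ⟨j, rfl⟩
      have h1 : Pi.basisFun ℚ (Fin d) j =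
          (m₁ : ℚ)⁻¹ • fun i => ((m₁ : ℚ) • (1 : Matrix (Fin d) (Fin d) ℚ)) i j := by
        funext i
        simp [Matrix.one_apply, Pi.single_apply, hq₁]
      rw [h1]
      exact Submodule.smul_mem _ _ (Submodule.subset_span (hc₁ j))
  let β : Basis (Fin d) ℤ L := Module.finBasisOfFinrankEq ℤ L
    ((Submodule.IsLattice.finrank_of_pi ℚ L).trans (Fintype.card_fin d))
  let B : Matrix (Fin d) (Fin d) ℚ := Matrix.of fun i j => (β j).1 i
  have hB : ∀ M : Matrix (Fin d) (Fin d) ℚ, (∀ j, (fun i => M i j) ∈ L) →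
      ∃ z : ℤ, M.det = B.det * z := by
    intro M hM
    let Z : Matrix (Fin d) (Fin d) ℤ := Matrix.of fun i j => β.repr ⟨_, hM j⟩ i
    have h1 : M = B * Z.map (Int.castRingHom ℚ) := by
      ext i j
      have h2 := congrArg (fun v : L => v.1 i) (β.sum_repr ⟨_, hM j⟩)
      simp only [AddSubmonoidClass.coe_finsetSum, Finset.sum_apply, SetLike.val_smul,
        zsmul_eq_mul] at h2
      rw [← h2, Matrix.mul_apply]
      exact Finset.sum_congr rfl fun k _ => mul_comm _ _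
    refine ⟨Z.det, ?_⟩
    rw [h1, Matrix.det_mul]
    congr 1
    exact ((Int.castRingHom ℚ).map_det Z).symm
  obtain ⟨z₁, hz₁⟩ := hB _ hc₁
  obtain ⟨z₂, hz₂⟩ := hB _ hc₂
  rw [Matrix.det_smul, Fintype.card_fin] at hz₁ hz₂
  rw [Matrix.det_one, mul_one] at hz₁
  have hB0 : B.det ≠ 0 := fun h => pow_ne_zero d hq₁ (by rw [hz₁, h, zero_mul])
  have hdd : H.det * H'.det = 1 := by rw [← Matrix.det_mul, hH, Matrix.det_one]
  have h1 : B.det⁻¹ = z₁ * ((m₁ : ℚ)⁻¹) ^ d := by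
    rw [inv_pow, hz₁]
    have : (z₁ : ℚ) ≠ 0 := fun h => pow_ne_zero d hq₁ (by rw [hz₁, h, mul_zero])
    field_simp
  have h2 : B.det⁻¹ = z₂ * ((m₂ : ℚ)⁻¹) ^ d * H.det := by
    rw [inv_pow]
    field_simp
    linear_combination H.det * hz₂ - (m₂ : ℚ) ^ d * hdd
  obtain ⟨z, hz⟩ : ∃ z : ℤ, B.det⁻¹ = z := by
    refine int_of_mem (Q := Q) ?_ ?_
    · rw [h1]
      exact (ZS Q).mul_mem (intCast_mem _ _) ((ZS Q).pow_mem hu₁ _)
    · rw [h2]
      exact (ZS Qᶜ).mul_mem ((ZS Qᶜ).mul_mem (intCast_mem _ _) ((ZS Qᶜ).pow_mem hu₂ _))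
        (mem_of_abs_eq_one _ hdet)
  have hz0 : z ≠ 0 := by
    rintro rfl
    exact inv_ne_zero hB0 (by simpa using hz)
  refine ⟨B, hB0, ?_, fun i j => (β j).2.1 i, fun i j => (β j).2.2 i⟩
  have h3 : (1 : ℚ) ≤ |B.det|⁻¹ := by
    rw [← abs_inv, hz]
    exact_mod_cast Int.one_le_abs hz0
  exact (one_le_inv₀ (abs_pos.2 hB0)).1 h3

end Vale.Agent.P011N.G1
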